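import Vale.Agent.P308.Law
import Vale.Agent.P308.Model

namespace Vale.Agent.Results.P308.Fpras

open Vale.Agent.P328 hiding input
open Vale.Agent.P308

theorem result : ∃ (P : Prog) (bits time : Polynomial ℕ),
    ∀ (n : ℕ) (G : SimpleGraph (Fin n)) (ε δ : ℚ), 0 < ε → ε < 1 → 0 < δ → δ < 1 / 2 →
    ∀ (e k L N : ℕ), e = ⌈ε⁻¹⌉₊ → k = Nat.clog 2 ⌈δ⁻¹⌉₊ → L = n + e + k →
      N = {M : G.Subgraph | M.IsPerfectMatching}.ncard →
      (∀ ω : Fin (bits.eval L) → Fin 2, (P.run (input G e k ω)).2 ≤ time.eval L) ∧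
      (1 - δ : ℚ) ≤ ({ω : Fin (bits.eval L) → Fin 2 |
          (1 - ε) * N ≤ (P.run (input G e k ω)).1.toNat ∧
          ((P.run (input G e k ω)).1.toNat : ℚ) ≤ (1 + ε) * N}.ncard : ℚ) / 2 ^ bits.eval L := by
  classical
  obtain ⟨P, hP, q, hq⟩ := Vale.Agent.P308.pt_all
  obtain ⟨b, hb⟩ := Vale.Agent.P308.pb_bits
  refine ⟨P, b.comp (3 * .X * .X + 2 * .X + 5), q.comp (3 * .X * .X + 2 * .X + 7 + 3 * b.comp (3 * .X * .X + 2 * .X + 5)),
    fun n G ε δ e0 _ d0 _ e k L N he hk hL hN => ?_⟩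
  obtain ⟨x, hx⟩ : ∃ x : Inr, x = ⟨(List.ofFn fun u => List.ofFn fun v => if G.Adj u v then 1 else 0,
    List.replicate e 0, List.replicate k 0)⟩ := ⟨_, rfl⟩
  have s1 : sz x ≤ 3 * L * L + 2 * L + 5 := by
    have a : ∀ (m : ℕ) (f : Fin m → List ℕ), (∀ i, sz (f i) ≤ 3 * n + 1) → sz (List.ofFn f) ≤ m * (3 * n + 2) + 1 :=
      fun m => by
        induction m with
        | zero => exact fun _ _ => by simp [sz_nil]
        | succ m ih =>
          intro f h
          have := ih _ fun i => h i.succ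
          have := h 0
          rw [List.ofFn_succ, sz_cons, Nat.succ_mul]
          omega
    have c := a n (fun u => List.ofFn fun v => if G.Adj u v then 1 else 0) fun u => by
      have : ∑ v, Nat.size (if G.Adj u v then 1 else 0) ≤ ∑ _v : Fin n, 1 :=
        Finset.sum_le_sum fun v _ => by split_ifs <;> simp
      simp only [Finset.sum_const, Finset.card_univ, Fintype.card_fin, smul_eq_mul] at this
      rw [sz_ofFn]
      omega
    have d : n * (3 * n) ≤ 3 * L * L := by
      rw [mul_comm]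
      exact Nat.mul_le_mul (by omega) (by omega)
    rw [mul_add] at c
    change sz x.d ≤ _
    rw [hx, sz_pair, sz_pair, sz_rep, sz_rep]
    omega
  generalize hl : (b.comp (3 * .X * .X + 2 * .X + 5)).eval L = l
  have e1 : ∀ ω : Fin l → Fin 2, input G e k ω = Enc.enc (x, List.ofFn fun i => (ω i : ℕ)) :=
    fun ω => by
      rw [hx, input, enc_pair]
      congr 2
      change _ = Val.ofList (List.map _ _)
      rw [List.map_ofFn]
      rfl
  have xe : x.e = e := by simp [hx, Inr.e]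
  have xk : x.k = k := by simp [hx, Inr.k]
  have hG : ∀ u v : Fin n, x.adj u v = if G.Adj u v then 1 else 0 := fun u v => by
    simp only [hx, Inr.adj, getD_ofFn]
  obtain rfl : x.n = n := by simp [hx, Inr.n]
  have e3 : 0 < e := he ▸ Nat.ceil_pos.2 (by positivity)
  have := Inr.law x G hG (xe ▸ e3) (l := l)
    ((hb x).trans ((eval_mono b s1).trans_eq (by simp [← hl, Polynomial.eval_comp])))
  rw [xe, xk, ← hN] at this
  refine ⟨fun ω => ?_, ?_⟩
  · rw [e1, Polynomial.eval_comp]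
    refine (hq _).trans (eval_mono q ?_)
    have a : ∑ i, Nat.size (ω i) ≤ ∑ _i : Fin l, 1 :=
      Finset.sum_le_sum fun i _ => Nat.size_le.2 (ω i).2
    rw [sz_pair, sz_ofFn]
    simp only [Polynomial.eval_add, Polynomial.eval_mul, hl, Polynomial.eval_X, Polynomial.eval_ofNat]
    simp only [Finset.sum_const, Finset.card_univ, Fintype.card_fin, smul_eq_mul] at a
    omega
  have c1 : (1 / 2 : ℝ) ^ k ≤ δ := by
    have : ((δ⁻¹ : ℚ) : ℝ) ≤ (2 ^ k : ℕ) := by
      exact_mod_cast (Nat.le_ceil δ⁻¹).trans (Nat.cast_le.2 (hk ▸ Nat.le_pow_clog one_lt_two _))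
    push_cast at this
    rw [one_div, inv_pow]
    exact inv_le_of_inv_le₀ (by exact_mod_cast d0) this
  have c2 : (N / e : ℝ) ≤ ε * N := by
    have : ((ε⁻¹ : ℚ) : ℝ) ≤ e := by exact_mod_cast he ▸ Nat.le_ceil ε⁻¹
    push_cast at this
    rw [div_eq_inv_mul]
    exact mul_le_mul_of_nonneg_right (inv_le_of_inv_le₀ (by exact_mod_cast e0) this) (by positivity)
  rw [← Rat.cast_le (K := ℝ)]
  push_cast
  refine le_trans (by linarith) (this.trans (div_le_div_of_nonneg_right (Nat.cast_le.2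
    (Set.ncard_le_ncard (fun ω h => ?_) (Set.toFinite _))) (by positivity)))
  rw [Set.mem_ofPred_eq, abs_le] at h
  rw [Set.mem_ofPred_eq, e1, hP, ← Rat.cast_le (K := ℝ), ← Rat.cast_le (K := ℝ)]
  push_cast
  simp only [toNum_eq, enc_nat, Val.toNat]
  constructor <;> linarith [h.1, h.2]

end Vale.Agent.Results.P308.Fpras
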